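import Vale.Agent.P194.CharZero

/-!
Stable finiteness of group algebras in large characteristic relative to the support.
-/

namespace Vale.Agent.Results.P194.LargeCharFinite

open Filter MonoidAlgebra Vale.Agent.P194

theorem exists_terms {K G : Type} [Field K] [Group G] (n : ℕ) :
    ∀ x : MonoidAlgebra K G, x.coeff.support.card ≤ n →
      ∃ (g : Fin n → G) (a : Fin n → K), x = ∑ t, single (g t) (a t) := by
  classical
  induction n with
  | zero =>
    intro x hx
    refine ⟨fun t => t.elim0, fun t => t.elim0, ?_⟩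
    rw [Nat.le_zero, Finset.card_eq_zero, Finsupp.support_eq_empty] at hx
    simpa using MonoidAlgebra.ext hx
  | succ n ih =>
    intro x hx
    by_cases h0 : x.coeff.support = ∅
    · refine ⟨fun _ => 1, fun _ => 0, ?_⟩
      rw [Finsupp.support_eq_empty] at h0
      simpa using MonoidAlgebra.ext h0
    · obtain ⟨g0, hg0⟩ := Finset.nonempty_iff_ne_empty.mpr h0
      have hy : (x - single g0 (x.coeff g0)).coeff.support.card ≤ n := by
        have : (x - single g0 (x.coeff g0)).coeff.support ⊆ x.coeff.support.erase g0 := by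
          intro g hg
          rw [Finsupp.mem_support_iff] at hg
          rw [Finset.mem_erase, Finsupp.mem_support_iff]
          by_cases h : g = g0
          · subst h; simp at hg
          · exact ⟨h, by simpa [h] using hg⟩
        have := (Finset.card_le_card this).trans (le_of_eq (Finset.card_erase_of_mem hg0))
        omega
      obtain ⟨g, a, hga⟩ := ih _ hy
      refine ⟨Fin.cons g0 g, Fin.cons (x.coeff g0) a, ?_⟩
      simp [Fin.sum_univ_succ, ← hga]

theorem entry_sub_one {K G : Type} [Field K] [Group G] {k n : ℕ}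
    (A B : Matrix (Fin k) (Fin k) (MonoidAlgebra K G))
    (g h : Fin k → Fin k → Fin n → G) (a b : Fin k → Fin k → Fin n → K)
    (hA : ∀ i j, A i j = ∑ t, single (g i j t) (a i j t))
    (hB : ∀ i j, B i j = ∑ t, single (h i j t) (b i j t)) (i j : Fin k) :
    (A * B - 1) i j = ∑ q : Option (Fin k × Fin n × Fin n),
      single (q.elim 1 fun w => g i w.1 w.2.1 * h w.1 j w.2.2)
        (q.elim (if i = j then (-1 : K) else 0) fun w => a i w.1 w.2.1 * b w.1 j w.2.2) := by
  classical
  simp only [Matrix.sub_apply, Matrix.mul_apply, hA, hB, Fintype.sum_option, Option.elim,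
    Fintype.sum_prod_type, Finset.sum_mul, Finset.mul_sum, single_mul_single]
  rw [sub_eq_add_neg, add_comm]
  congr 1
  · by_cases hij : i = j
    · subst hij
      simp [MonoidAlgebra.one_def]
    · simp [Matrix.one_apply_ne hij, hij]
  · exact Finset.sum_congr rfl fun l _ => Finset.sum_comm

theorem sum_single_eq_zero {K G : Type} [Field K] [DecidableEq G] {Q : Type} [Fintype Q]
    (x : Q → G) (c : Q → K) :
    (∑ q, (single (x q) (c q) : MonoidAlgebra K G)) = 0 ↔
      ∀ r, ∑ q, (if x q = x r then c q else 0) = 0 := by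
  have key : ∀ y, (∑ q, (single (x q) (c q) : MonoidAlgebra K G)).coeff y =
      ∑ q, if x q = y then c q else 0 := by
    intro y
    simp [Finsupp.single_apply]
  constructor
  · intro h r
    rw [← key, h]
    simp
  · intro h
    refine MonoidAlgebra.ext (Finsupp.ext fun y => ?_)
    rw [key]
    by_cases hy : ∃ r, x r = y
    · obtain ⟨r, rfl⟩ := hy
      simpa using h r
    · push Not at hy
      simp [hy]

theorem result :
    ∀ k n : ℕ, ∃ P : ℕ, ∀ (G : Type) [Group G] (K : Type) [Field K],
      (ringChar K = 0 ∨ P < ringChar K) →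
      ∀ A B : Matrix (Fin k) (Fin k) (MonoidAlgebra K G),
        (∀ i j, (A i j).coeff.support.card ≤ n) → (∀ i j, (B i j).coeff.support.card ≤ n) →
        A * B = 1 → B * A = 1 := by
  classical
  intro k n
  by_contra hcon
  push Not at hcon
  choose G hG K hK hchar A B hA hB hAB hBA using hcon
  choose g a hga using fun P i j => exists_terms n _ (hA P i j)
  choose h b hhb using fun P i j => exists_terms n _ (hB P i j)
  let U : Ultrafilter ℕ := hyperfilter ℕ
  let N : Subgroup (∀ P, G P) :=
    { carrier := {x | ∀ᶠ P in (U : Filter ℕ), x P = 1}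
      one_mem' := Eventually.of_forall fun P => rfl
      mul_mem' := fun {x y} hx hy => by
        filter_upwards [hx, hy] with P h1 h2
        simp [h1, h2]
      inv_mem' := fun {x} hx => by
        filter_upwards [hx] with P h1
        simp [h1] }
  haveI : N.Normal := ⟨fun x hx y => by
    show ∀ᶠ P in (U : Filter ℕ), (y * x * y⁻¹) P = 1
    filter_upwards [show ∀ᶠ P in (U : Filter ℕ), x P = 1 from hx] with P h1
    simp [h1]⟩
  let I : Ideal (∀ P, K P) :=
    { carrier := {x | ∀ᶠ P in (U : Filter ℕ), x P = 0}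
      zero_mem' := Eventually.of_forall fun P => rfl
      add_mem' := fun {x y} hx hy => by
        filter_upwards [hx, hy] with P h1 h2
        simp [h1, h2]
      smul_mem' := fun c x hx => by
        show ∀ᶠ P in (U : Filter ℕ), (c • x) P = 0
        filter_upwards [show ∀ᶠ P in (U : Filter ℕ), x P = 0 from hx] with P h1
        simp [h1] }
  haveI hI : I.IsMaximal := by
    rw [Ideal.isMaximal_iff]
    refine ⟨fun h1 => ?_, fun J x hIJ hxI hxJ => ?_⟩
    · have h2 : ∀ᶠ P in (U : Filter ℕ), (1 : K P) = 0 := h1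
      obtain ⟨P, hP⟩ := h2.exists
      exact one_ne_zero hP
    · have hx : ∀ᶠ P in (U : Filter ℕ), x P ≠ 0 := Ultrafilter.eventually_not.mpr hxI
      have h1 : (1 : ∀ P, K P) - (fun P => (x P)⁻¹) * x ∈ I := by
        show ∀ᶠ P in (U : Filter ℕ), ((1 : ∀ P, K P) - (fun P => (x P)⁻¹) * x) P = 0
        filter_upwards [hx] with P hP
        simp [hP]
      simpa using J.add_mem (hIJ h1) (J.mul_mem_left (fun P => (x P)⁻¹) hxJ)
  letI : Field ((∀ P, K P) ⧸ I) := Ideal.Quotient.field I
  haveI : CharZero ((∀ P, K P) ⧸ I) := by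
    refine charZero_of_inj_zero fun m hm => ?_
    by_contra hm0
    rw [← map_natCast (Ideal.Quotient.mk I), Ideal.Quotient.eq_zero_iff_mem] at hm
    have hm' : ∀ᶠ P in (U : Filter ℕ), (m : K P) = 0 := hm
    have hbig : ∀ᶠ P in (U : Filter ℕ), m < P :=
      (Nat.cofinite_eq_atTop ▸ hyperfilter_le_cofinite : (hyperfilter ℕ : Filter ℕ) ≤ atTop)
        (eventually_gt_atTop m)
    obtain ⟨P, h1, h2⟩ := (hm'.and hbig).exists
    rw [ringChar.spec] at h1
    rcases hchar P with hc | hc
    · rw [hc, zero_dvd_iff] at h1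
      exact hm0 h1
    · have := Nat.le_of_dvd (Nat.pos_of_ne_zero hm0) h1
      omega
  have transfer : ∀ {Q : Type} [Fintype Q] (x : ∀ P, Q → G P) (c : ∀ P, Q → K P),
      (∑ q, (single (QuotientGroup.mk (fun P => x P q) : (∀ P, G P) ⧸ N)
        (Ideal.Quotient.mk I fun P => c P q) :
          MonoidAlgebra ((∀ P, K P) ⧸ I) ((∀ P, G P) ⧸ N))) = 0 ↔
      ∀ᶠ P in (U : Filter ℕ), ∑ q, single (x P q) (c P q) = 0 := by
    intro Q _ x c
    have hpat : ∀ᶠ P in (U : Filter ℕ), ∀ q r, x P q = x P r ↔
        (QuotientGroup.mk (fun P => x P q) : (∀ P, G P) ⧸ N) = QuotientGroup.mk fun P => x P r := by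
      simp only [eventually_all]
      intro q r
      have heq : (QuotientGroup.mk (fun P => x P q) : (∀ P, G P) ⧸ N) =
          QuotientGroup.mk (fun P => x P r) ↔ ∀ᶠ P in (U : Filter ℕ), x P q = x P r := by
        rw [QuotientGroup.eq]
        show (∀ᶠ P in (U : Filter ℕ), (x P q)⁻¹ * x P r = 1) ↔ _
        simp only [inv_mul_eq_one]
      by_cases he : ∀ᶠ P in (U : Filter ℕ), x P q = x P r
      · filter_upwards [he] with P hP
        exact iff_of_true hP (heq.mpr he)
      · filter_upwards [Ultrafilter.eventually_not.mpr he] with P hP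
        exact iff_of_false hP (fun h' => he (heq.mp h'))
    rw [sum_single_eq_zero]
    simp only [sum_single_eq_zero, eventually_all]
    refine forall_congr' fun r => ?_
    have : (∑ q, if (QuotientGroup.mk (fun P => x P q) : (∀ P, G P) ⧸ N) =
          QuotientGroup.mk (fun P => x P r) then Ideal.Quotient.mk I (fun P => c P q) else 0) =
        Ideal.Quotient.mk I (fun P => ∑ q, if (QuotientGroup.mk (fun P => x P q) :
          (∀ P, G P) ⧸ N) = QuotientGroup.mk (fun P => x P r) then c P q else 0) := by
      have e : (fun P => ∑ q, if (QuotientGroup.mk (fun P => x P q) :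
          (∀ P, G P) ⧸ N) = QuotientGroup.mk (fun P => x P r) then c P q else 0) =
          ∑ q, if (QuotientGroup.mk (fun P => x P q) :
          (∀ P, G P) ⧸ N) = QuotientGroup.mk (fun P => x P r) then (fun P => c P q) else 0 := by
        ext P
        rw [Finset.sum_apply]
        exact Finset.sum_congr rfl fun q _ => by split <;> rfl
      rw [e, map_sum]
      exact Finset.sum_congr rfl fun q _ => by rw [apply_ite (Ideal.Quotient.mk I), map_zero]
    rw [this, Ideal.Quotient.eq_zero_iff_mem]
    show (∀ᶠ P in (U : Filter ℕ), _ = 0) ↔ _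
    refine eventually_congr ?_
    filter_upwards [hpat] with P hP
    simp only [hP]
  let gs : Fin k → Fin k → Fin n → (∀ P, G P) ⧸ N :=
    fun i j t => QuotientGroup.mk fun P => g P i j t
  let hs : Fin k → Fin k → Fin n → (∀ P, G P) ⧸ N :=
    fun i j t => QuotientGroup.mk fun P => h P i j t
  let as : Fin k → Fin k → Fin n → (∀ P, K P) ⧸ I :=
    fun i j t => Ideal.Quotient.mk I fun P => a P i j t
  let bs : Fin k → Fin k → Fin n → (∀ P, K P) ⧸ I :=
    fun i j t => Ideal.Quotient.mk I fun P => b P i j t
  let As : Matrix (Fin k) (Fin k) (MonoidAlgebra ((∀ P, K P) ⧸ I) ((∀ P, G P) ⧸ N)) :=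
    Matrix.of fun i j => ∑ t, single (gs i j t) (as i j t)
  let Bs : Matrix (Fin k) (Fin k) (MonoidAlgebra ((∀ P, K P) ⧸ I) ((∀ P, G P) ⧸ N)) :=
    Matrix.of fun i j => ∑ t, single (hs i j t) (bs i j t)
  have cast1 : ∀ (i j : Fin k), (if i = j then (-1 : (∀ P, K P) ⧸ I) else 0) =
      Ideal.Quotient.mk I (fun P => if i = j then (-1 : K P) else 0) := by
    intro i j
    by_cases hij : i = j
    · simp only [hij, if_true]; rfl
    · simp only [hij, if_false]; rfl
  have e1 : As * Bs = 1 := by
    rw [← sub_eq_zero]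
    refine Matrix.ext fun i j => ?_
    rw [entry_sub_one As Bs gs hs as bs (fun _ _ => rfl) (fun _ _ => rfl) i j]
    have := (transfer (fun P (q : Option (Fin k × Fin n × Fin n)) =>
        q.elim 1 fun w => g P i w.1 w.2.1 * h P w.1 j w.2.2)
      (fun P q => q.elim (if i = j then (-1 : K P) else 0) fun w =>
        a P i w.1 w.2.1 * b P w.1 j w.2.2)).mpr (Eventually.of_forall fun P => by
          rw [← entry_sub_one (A P) (B P) (g P) (h P) (a P) (b P) (hga P) (hhb P) i j, hAB]
          simp)
    refine Eq.trans (Finset.sum_congr rfl fun q _ => ?_) this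
    rcases q with _ | w
    · simp only [Option.elim, cast1]; rfl
    · rfl
  have e2 : Bs * As = 1 := mul_eq_one_comm_charZero As Bs e1
  have e3 : ∀ᶠ P in (U : Filter ℕ), ∀ i j, (B P * A P - 1) i j = 0 := by
    simp only [eventually_all]
    intro i j
    have h0 : (Bs * As - 1) i j = 0 := by rw [e2]; simp
    rw [entry_sub_one Bs As hs gs bs as (fun _ _ => rfl) (fun _ _ => rfl) i j] at h0
    have := (transfer (fun P (q : Option (Fin k × Fin n × Fin n)) =>
        q.elim 1 fun w => h P i w.1 w.2.1 * g P w.1 j w.2.2)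
      (fun P q => q.elim (if i = j then (-1 : K P) else 0) fun w =>
        b P i w.1 w.2.1 * a P w.1 j w.2.2)).mp (by
          refine Eq.trans (Finset.sum_congr rfl fun q _ => ?_) h0
          rcases q with _ | w
          · simp only [Option.elim, cast1]; rfl
          · rfl)
    filter_upwards [this] with P hP
    rw [entry_sub_one (B P) (A P) (h P) (g P) (b P) (a P) (hhb P) (hga P) i j]
    exact hP
  obtain ⟨P, hP⟩ := e3.exists
  exact hBA P (sub_eq_zero.mp (Matrix.ext fun i j => hP i j))

end Vale.Agent.Results.P194.LargeCharFinite
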