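import Vale.Agent.P194.AugInj

/-!
Stable finiteness of group algebras lifts along locally indicable kernels.
-/

namespace Vale.Agent.Results.P194.LocallyIndicableKernel

open MonoidAlgebra Vale.Agent.P194

theorem result :
    ∀ (K : Type) [Field K] (G Q : Type) [Group G] [Group Q] (π : G →* Q),
      (∀ H : Subgroup G, H ≤ π.ker → H.FG → H ≠ ⊥ →
        (∃ φ : H →* Multiplicative ℤ, φ ≠ 1) ∨
          ∃ p : ℕ, p.Prime ∧ CharP K p ∧ ∃ φ : H →* Multiplicative (ZMod p), φ ≠ 1) →
      ((∀ a b : Q, a * b = b * a) ∨ Finite Q ∨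
        ∀ (n : ℕ) (A B : Matrix (Fin n) (Fin n) (MonoidAlgebra K Q)), A * B = 1 → B * A = 1) →
      ∀ (n : ℕ) (A B : Matrix (Fin n) (Fin n) (MonoidAlgebra K G)), A * B = 1 → B * A = 1 := by
  intro K _ G Q _ _ π hker hQ
  have hloc : LocAug K G π.ker := fun H hH hfg hne => by
    rcases hker H hH hfg hne with ⟨φ, hφ⟩ | ⟨p, hp, hchar, φ, hφ⟩
    · exact ⟨Multiplicative ℤ, inferInstance, φ, hφ, augInj_int⟩
    · have : Fact p.Prime := ⟨hp⟩
      exact ⟨Multiplicative (ZMod p), inferInstance, φ, hφ, augInj_zmod p⟩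
  have hSF : StablyFinite K Q := by
    rcases hQ with h | h | h
    · intro n A B hAB
      let _i : CommGroup Q := { ‹Group Q› with mul_comm := h }
      exact mul_eq_one_comm.1 hAB
    · intro n A B hAB
      classical
      have : Fintype Q := Fintype.ofFinite Q
      have : Module.Finite K (MonoidAlgebra K Q) :=
        Module.Finite.equiv (MonoidAlgebra.coeffLinearEquiv K).symm
      have hinj : Function.Injective (LinearMap.mulLeft K B) := fun C D h => by
        have h' := congrArg (fun M => A * M) h
        simpa [← mul_assoc, hAB] using h'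
      obtain ⟨C, hC⟩ := LinearMap.injective_iff_surjective.1 hinj 1
      simp only [LinearMap.mulLeft_apply] at hC
      rw [show A = C by rw [← one_mul C, ← hAB, mul_assoc, hC, mul_one], hC]
    · exact h
  exact stablyFinite_of_hom π hloc hSF

end Vale.Agent.Results.P194.LocallyIndicableKernel
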